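import Vale.Agent.P254.SP.H38.Col
import Vale.Agent.P254.SP.H151.ColIface2

/-! P254, block SP (helper151, proof by helper38): mode 1 of one column from its pointwise forms. -/

set_option autoImplicit false

open MeasureTheory Matrix

namespace Vale.Agent.P254.SP151

open Vale.Agent.P227.M Vale.Agent.P254.S Vale.Agent.P254.SP
open Vale.Agent.P254.SP127 (MP FC)
open Vale.Agent.P254.SP38

theorem mode1_of (hLin : SP.StmtLin) {P : F1} {ν b₁ ρ : ℝ} {N : ℕ} {w : Fin N → ℝ → ℝ → ℝ}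
    {bw : Fin N → ℝ} {i₀ : Fin N} (hw : ∀ m, Continuous fun p : ℝ × ℝ => w m p.1 p.2)
    (hw0 : ∀ x y, w i₀ x y = dd P.r' P.r'' x y - P.r'' x)
    {n : ℕ} {φ V : E n → ℝ} {a b M κ : ℝ} {U : E n → Matrix (Fin n) (Fin n) ℝ}
    {s : E n → Fin n → ℝ} (hD : Dat P φ V a b M κ U s)
    (h0 : ∀ i j, Ex Q (fun z => GG U s z i j) = 0) {e : Fin n → ℝ} {q : ℝ}
    (hq : (KK U s).mulVec e = q • e) (he : ∑ i, e i ^ 2 = 1) (_hq0 : 0 ≤ q)
    {m : Mult N} (hm : PW P q ν b₁ ρ w bw i₀ m) : Mode1 P ν b₁ w bw ρ U s q e := by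
  refine ⟨m.c, m.σ, hm.c_pos, hm.σ_pos, ?_⟩
  have h := hD.bp
  have hF := hD.fr
  have ho := hF.orth
  obtain ⟨l1, l2, l3, l4, l5, l6⟩ := hLin P n φ V a b M κ U s hD h0 e q hq
  have hGap := (SP649.stmtGap P n φ V a b M κ U s hD h0 e).1
  -- the columns
  have hX : FC U (xx U e) := FC.xx e
  have hY : FC U (col U (FF U s) e) := FC.y h hF e
  have hZ : FC U (col U (ZZ U s) e) := FC.ze h hF e
  have hFa : ∀ k, FC U (col U (Fa U s k) e) := fun k => FC.fa h hF k e
  have hAL : ∀ k, FC U (xx U ((AA U s k).mulVec e)) := fun k => FC.xx _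
  have hK1 : ∀ k, FC U (kap P.r P.r' U s k e) := fun k => FC.kap h hF P.hr (r'_cont P) k e
  have hbe : ∀ k, FC U (be P U s e k) := fun k => FC.be h hF e k
  have hae : FC U (SP.ae P U s q e) := FC.ae h hF q e
  have hQZ : FC U (fun z i => q * xx U e z i + col U (ZZ U s) e z i) := (hX.smul q).add hZ
  have xsum : ∀ z, ∑ i, xx U e z i ^ 2 = 1 := by
    intro z
    have h1 : ((U z).transpose *ᵥ e) ⬝ᵥ ((U z).transpose *ᵥ e) = e ⬝ᵥ e := by
      rw [Matrix.dotProduct_mulVec, Matrix.vecMul_transpose, Matrix.mulVec_mulVec, ho z,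
        Matrix.one_mulVec]
    have h2 : ∑ i, xx U e z i ^ 2 = ((U z).transpose *ᵥ e) ⬝ᵥ ((U z).transpose *ᵥ e) := by
      simp only [dotProduct, sq]
      rfl
    rw [h2, h1, ← he]
    simp only [dotProduct, sq]
  have lsum : ∀ z, ∑ k, ∑ i, xx U ((AA U s k).mulVec e) z i ^ 2 = q := by
    intro z
    rw [l6 z, he, mul_one]
  -- the case `q = 0`
  have hAe : q = 0 → ∀ k, (AA U s k).mulVec e = 0 := by
    intro hq1 k
    have h1 := lsum 0
    rw [hq1] at h1
    have h2 : ∑ i, xx U ((AA U s k).mulVec e) 0 i ^ 2 = 0 :=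
      (Finset.sum_eq_zero_iff_of_nonneg fun k _ => Finset.sum_nonneg fun i _ => sq_nonneg _).1 h1
        k (Finset.mem_univ k)
    have h3 : ∀ i, xx U ((AA U s k).mulVec e) 0 i = 0 := fun i => by
      have := (Finset.sum_eq_zero_iff_of_nonneg fun i _ => sq_nonneg _).1 h2 i (Finset.mem_univ i)
      exact pow_eq_zero_iff (two_ne_zero) |>.1 this
    have h4 : (U 0).transpose *ᵥ ((AA U s k).mulVec e) = 0 := funext h3
    calc (AA U s k).mulVec e = (U 0 * (U 0).transpose) *ᵥ ((AA U s k).mulVec e) := by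
          rw [ho 0, Matrix.one_mulVec]
      _ = U 0 *ᵥ ((U 0).transpose *ᵥ ((AA U s k).mulVec e)) := (Matrix.mulVec_mulVec _ _ _).symm
      _ = 0 := by rw [h4, Matrix.mulVec_zero]
  have hz0 : q = 0 → ∀ z i, col U (ZZ U s) e z i = 0 := by
    intro hq1 z i
    unfold SP.col ZZ
    rw [Matrix.sum_mulVec]
    have h1 : ∑ k, (Fa U s k z * AA U s k) *ᵥ e = 0 := by
      refine Finset.sum_eq_zero fun k _ => ?_
      rw [← Matrix.mulVec_mulVec, hAe hq1 k, Matrix.mulVec_zero]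
    rw [h1, Matrix.mulVec_zero]
    rfl
  have hk0 : q = 0 → ∀ (W : ℝ → ℝ → ℝ) z i, kA W U s e z i = 0 := by
    intro hq1 W z i
    unfold kA kk
    refine Finset.sum_eq_zero fun k _ => Finset.sum_eq_zero fun j _ => ?_
    have h1 : xx U ((AA U s k).mulVec e) z j = 0 := by
      rw [hAe hq1 k]
      unfold xx
      rw [Matrix.mulVec_zero]
      rfl
    rw [h1, mul_zero]
  -- kernels
  have hkr' : ∀ z i, ∑ k, kap P.r' P.r'' U s k ((AA U s k).mulVec e) z i
      = kA (w i₀) U s e z i := by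
    intro z i
    unfold kA kk kap
    refine Finset.sum_congr rfl fun k _ => Finset.sum_congr rfl fun j _ => ?_
    rw [hw0]
  have hsum : ∀ z i, ∑ j, m.γ j (s z i) * kA (w j) U s e z i
      = (m.c - 1) * kA (ck P) U s e z i
        - m.Mt * kA (fun x y => dd (th P) (th1 P) x y - th1 P x) U s e z i
        - m.Mr * kA (fun x y => dd P.r P.r' x y - P.r' x) U s e z i
        - m.B4 * kA (fun x y => P.r' y ^ 2 - P.r' x ^ 2) U s e z i := by
    intro z i
    rw [← kA_four, kA_lin m.γ w _ hm.ker]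
  have c_th : Continuous fun p : ℝ × ℝ => dd (th P) (th1 P) p.1 p.2 - th1 P p.1 :=
    (SP127.dd_continuous (hasDeriv_th P) (th1_cont P)).sub ((th1_cont P).comp continuous_fst)
  have c_r : Continuous fun p : ℝ × ℝ => dd P.r P.r' p.1 p.2 - P.r' p.1 :=
    (SP127.dd_continuous P.hr (r'_cont P)).sub ((r'_cont P).comp continuous_fst)
  have c_4 : Continuous fun p : ℝ × ℝ => P.r' p.2 ^ 2 - P.r' p.1 ^ 2 := by
    have := r'_cont P
    fun_prop
  have c_S2 : Continuous fun x => P.r' x ^ 2 := (r'_cont P).pow 2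
  -- single sums
  have t1 : HE (fun z => ∑ i, col U (FF U s) e z i ^ 2) (nF U s e) := HE.of (hY.sq ho)
  have t2 : HE (fun z => ∑ i, (P.r' (s z i) * col U (FF U s) e z i
      + (q - 1) * P.r'' (s z i) * xx U e z i + P.r'' (s z i) * col U (ZZ U s) e z i
      + kA (w i₀) U s e z i - 1 / 4 * col U (FF U s) e z i) ^ 2)
      (Ex Q (fun z => ∑ i, (SP.ae P U s q e z i - 1 / 4 * col U (FF U s) e z i) ^ 2)) := by
    refine (HE.of ((hae.sub (hY.smul (1 / 4))).sq ho)).congr fun z => ?_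
    refine Finset.sum_congr rfl fun i _ => ?_
    rw [← hkr']
    rfl
  have t3 : HE (fun z => ∑ i, w0 P (s z i) * xx U e z i ^ 2)
      (Ex Q (fun z => ∑ i, (P.r' (s z i) + P.r (s z i) * P.r'' (s z i)) * xx U e z i ^ 2)) :=
    HE.of (FC.psq h hF (w0_cont P) hX)
  have t4 : HE (fun z => ∑ i, w0 P (s z i) * xx U e z i * col U (ZZ U s) e z i)
      (Ex Q (fun z => ∑ i, (P.r' (s z i) + P.r (s z i) * P.r'' (s z i)) * xx U e z i
        * col U (ZZ U s) e z i)) := HE.of (FC.pdot h hF (w0_cont P) hX hZ)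
  have t5 : HE (fun z => ∑ i, th P (s z i) * xx U e z i * col U (FF U s) e z i)
      (Ex Q (fun z => ∑ i, (P.r (s z i) + P.r (s z i) * P.r' (s z i)) * xx U e z i
        * col U (FF U s) e z i)) := HE.of (FC.pdot h hF (th_cont P) hX hY)
  have t6 : HE (fun z => ∑ i, xx U e z i ^ 2) 1 := by
    refine HE.of_eq (hX.sq ho) ?_
    simp only [xsum]
    exact SP127.Ex_const' 1
  have t7 : HE (fun z => ∑ i, xx U e z i * col U (FF U s) e z i) 0 := HE.of_eq (hX.dot ho hY) l2
  have t8 : HE (fun z => ∑ i, s z i * xx U e z i * col U (FF U s) e z i) (nF U s e) :=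
    HE.of_eq (FC.pdot h hF continuous_id hX hY) l4
  have t9 : HE (fun z => ∑ i, xx U e z i * col U (ZZ U s) e z i) 0 := HE.of_eq (hX.dot ho hZ) l3
  have t10 : HE (fun z => ∑ i, s z i * xx U e z i ^ 2) 0 :=
    HE.of_eq (FC.psq h hF continuous_id hX) l1
  -- Stein identities
  have st0 := SP.H545.stmtST P n φ V a b M κ U s hD (fun x => x) (fun _ => 1)
    (fun x => hasDerivAt_id x) continuous_const e q hq
  have t12 : HE (fun z => ∑ i, 1 * xx U e z i * (q * xx U e z i + col U (ZZ U s) e z i))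
      (Ex Q (fun z => ∑ i, 1 * xx U e z i * (q * xx U e z i + col U (ZZ U s) e z i))) :=
    HE.of (FC.pdot h hF (p := fun _ => 1) continuous_const hX hQZ)
  have t11 : HE (fun z => ∑ i, s z i * s z i * xx U e z i ^ 2)
      (nF U s e
        + Ex Q (fun z => ∑ i, 1 * xx U e z i * (q * xx U e z i + col U (ZZ U s) e z i))) := by
    refine HE.of_eq (FC.psq h hF (p := fun x => x * x) (by fun_prop) hX) ?_
    have e1 : Ex Q (fun z => ∑ k, ∑ i, xx U e z i
        * kap (fun x => x) (fun _ => 1) U s k ((AA U s k).mulVec e) z i) = 0 := by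
      simp only [kap_id, mul_zero, Finset.sum_const_zero]
      exact SP127.Ex_const' 0
    have e2 : Ex Q (fun z => ∑ i, s z i * xx U e z i * col U (FF U s) e z i) = nF U s e := t8.val
    rw [e1, add_zero, e2] at st0
    exact st0
  have st1 := SP.H545.stmtST P n φ V a b M κ U s hD (th P) (th1 P) (hasDeriv_th P) (th1_cont P) e q hq
  have u2 : HE (fun z => ∑ i, xx U e z i
      * kA (fun x y => dd (th P) (th1 P) x y - th1 P x) U s e z i)
      (Ex Q (fun z => ∑ i, xx U e z i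
        * kA (fun x y => dd (th P) (th1 P) x y - th1 P x) U s e z i)) :=
    HE.of (hX.dot ho (fc_kA h hF c_th e))
  have t15 : HE (fun z => ∑ i, th1 P (s z i) * xx U e z i
      * (q * xx U e z i + col U (ZZ U s) e z i))
      (Ex Q (fun z => ∑ i, th1 P (s z i) * xx U e z i
        * (q * xx U e z i + col U (ZZ U s) e z i))) := HE.of (FC.pdot h hF (th1_cont P) hX hQZ)
  have t13 : HE (fun z => ∑ i, th P (s z i) * s z i * xx U e z i ^ 2)
      (Ex Q (fun z => ∑ i, (P.r (s z i) + P.r (s z i) * P.r' (s z i)) * xx U e z i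
        * col U (FF U s) e z i)
        + Ex Q (fun z => ∑ i, th1 P (s z i) * xx U e z i
          * (q * xx U e z i + col U (ZZ U s) e z i))
        + Ex Q (fun z => ∑ i, xx U e z i
          * kA (fun x y => dd (th P) (th1 P) x y - th1 P x) U s e z i)) := by
    refine HE.of_eq (FC.psq h hF (p := fun x => th P x * x)
      ((th_cont P).mul continuous_id) hX) ?_
    simp only [sum_kap] at st1
    exact st1
  have st2 := SP.H545.stmtST P n φ V a b M κ U s hD P.r P.r' P.hr (r'_cont P) e q hq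
  have u3 : HE (fun z => ∑ i, xx U e z i * kA (fun x y => dd P.r P.r' x y - P.r' x) U s e z i)
      (Ex Q (fun z => ∑ i, xx U e z i * kA (fun x y => dd P.r P.r' x y - P.r' x) U s e z i)) :=
    HE.of (hX.dot ho (fc_kA h hF c_r e))
  have t17 : HE (fun z => ∑ i, P.r (s z i) * xx U e z i * col U (FF U s) e z i)
      (Ex Q (fun z => ∑ i, P.r (s z i) * xx U e z i * col U (FF U s) e z i)) :=
    HE.of (FC.pdot h hF (r_cont P) hX hY)
  have t18 : HE (fun z => ∑ i, P.r' (s z i) * xx U e z i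
      * (q * xx U e z i + col U (ZZ U s) e z i))
      (Ex Q (fun z => ∑ i, P.r' (s z i) * xx U e z i
        * (q * xx U e z i + col U (ZZ U s) e z i))) := HE.of (FC.pdot h hF (r'_cont P) hX hQZ)
  have t16 : HE (fun z => ∑ i, P.r (s z i) * s z i * xx U e z i ^ 2)
      (Ex Q (fun z => ∑ i, P.r (s z i) * xx U e z i * col U (FF U s) e z i)
        + Ex Q (fun z => ∑ i, P.r' (s z i) * xx U e z i
          * (q * xx U e z i + col U (ZZ U s) e z i))
        + Ex Q (fun z => ∑ i, xx U e z i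
          * kA (fun x y => dd P.r P.r' x y - P.r' x) U s e z i)) := by
    refine HE.of_eq (FC.psq h hF (p := fun x => P.r x * x)
      ((r_cont P).mul continuous_id) hX) ?_
    simp only [sum_kap] at st2
    exact st2
  have u1 : HE (fun z => ∑ i, xx U e z i * kA (ck P) U s e z i)
      (Ex Q (fun z => ∑ i, xx U e z i * kA (ck P) U s e z i)) :=
    HE.of (hX.dot ho (fc_kA h hF (SP127.comm_continuous P) e))
  have u4 : HE (fun z => ∑ i, xx U e z i * kA (fun x y => P.r' y ^ 2 - P.r' x ^ 2) U s e z i)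
      (Ex Q (fun z => ∑ i, xx U e z i * kA (fun x y => P.r' y ^ 2 - P.r' x ^ 2) U s e z i)) :=
    HE.of (hX.dot ho (fc_kA h hF c_4 e))
  have t19 : HE (fun z => ∑ i, P.r' (s z i) ^ 2 * xx U e z i
      * (q * xx U e z i + col U (ZZ U s) e z i))
      (Ex Q (fun z => ∑ i, P.r' (s z i) ^ 2 * xx U e z i
        * (q * xx U e z i + col U (ZZ U s) e z i))) := HE.of (FC.pdot h hF c_S2 hX hQZ)
  have t20 : HE (fun z => ∑ i, xx U e z i * ∑ j, m.γ j (s z i) * kA (w j) U s e z i)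
      ((m.c - 1) * Ex Q (fun z => ∑ i, xx U e z i * kA (ck P) U s e z i)
        - m.Mt * Ex Q (fun z => ∑ i, xx U e z i
          * kA (fun x y => dd (th P) (th1 P) x y - th1 P x) U s e z i)
        - m.Mr * Ex Q (fun z => ∑ i, xx U e z i
          * kA (fun x y => dd P.r P.r' x y - P.r' x) U s e z i)
        - m.B4 * Ex Q (fun z => ∑ i, xx U e z i
          * kA (fun x y => P.r' y ^ 2 - P.r' x ^ 2) U s e z i)) := by
    refine ((((u1.smul (m.c - 1)).sub (u2.smul m.Mt)).sub (u3.smul m.Mr)).sub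
      (u4.smul m.B4)).congr fun z => ?_
    simp only [Finset.mul_sum, ← Finset.sum_sub_distrib]
    refine Finset.sum_congr rfl fun i _ => ?_
    rw [← Finset.mul_sum, hsum]
    ring
  have t21 : HE (fun z => ∑ i, col U (ZZ U s) e z i ^ 2) (nZ U s e) := HE.of (hZ.sq ho)
  have t22 : HE (fun z => ∑ i, ∑ j, m.c * bw j * q⁻¹ * kA (w j) U s e z i ^ 2)
      (m.c * ∑ j, bw j * (q⁻¹ * Ex Q (fun z => ∑ i, kA (w j) U s e z i ^ 2))) := by
    refine ((HE.sum Finset.univ fun j _ => ((HE.of ((fc_kA h hF (hw j) e).sq ho)).smul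
      q⁻¹).smul (bw j)).smul m.c).congr fun z => ?_
    rw [Finset.sum_comm, Finset.mul_sum]
    refine Finset.sum_congr rfl fun j _ => ?_
    rw [← Finset.mul_sum]
    ring
  -- form B
  have HB := (t1.smul (m.c - (1 + 1 / m.σ) / 16)).neg |>.sub t2
    |>.add ((((t3.smul (q - 1)).add t4).add t5).smul (m.c - 1))
    |>.sub (t6.smul (m.c * Real.log m.c - m.c + 1)) |>.add (t7.smul m.L1)
    |>.add ((t8.sub t1).smul m.L2) |>.add (t9.smul m.L3) |>.add (t10.smul m.L4)
    |>.sub (t6.smul (m.L5 * q)) |>.add (((t11.sub t8).sub t12).smul m.T0)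
    |>.add (((t13.sub t5).sub t15).smul m.Mt) |>.add (((t16.sub t17).sub t18).smul m.Mr)
    |>.sub (t19.smul m.B4) |>.add (t1.smul (2 * m.L6)) |>.add t20
    |>.add (t21.smul (m.c * ν * q⁻¹)) |>.add t22
    |>.sub ((t1.add (t6.smul (min 1 ((q - 1) ^ 2)))).smul (m.c * ρ))
  have hBn := HB.nonneg fun z => by
    have key := B_alg (xx U e z) (col U (FF U s) e z) (col U (ZZ U s) e z) (kA (w i₀) U s e z)
      (fun i => ∑ j, m.γ j (s z i) * kA (w j) U s e z i)
      (fun i => ∑ j, m.c * bw j * q⁻¹ * kA (w j) U s e z i ^ 2)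
      (s z) (fun i => P.r' (s z i)) (fun i => P.r'' (s z i)) (fun i => w0 P (s z i))
      (fun i => th P (s z i)) (fun i => th1 P (s z i)) (fun i => P.r (s z i))
      (m.c - (1 + 1 / m.σ) / 16) q (m.c - 1) (m.c * Real.log m.c - m.c + 1) m.L1 m.L2 m.L3 m.L4
      m.L5 m.T0 m.Mt m.Mr m.B4 m.L6 (m.c * ν * q⁻¹) (m.c * ρ) (min 1 ((q - 1) ^ 2))
    refine le_of_le_of_eq (Finset.sum_nonneg fun i _ => ?_) key
    exact hm.formB (s z i) (xx U e z i) (col U (FF U s) e z i) (col U (ZZ U s) e z i)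
      (fun j => kA (w j) U s e z i) fun hq1 => ⟨hz0 hq1 z i, fun j => hk0 hq1 (w j) z i⟩
  -- double sums
  have a1 : HE (fun z => ∑ k, ∑ i, col U (Fa U s k) e z i ^ 2) (nDF U s e) :=
    HE.of (MP.sum _ fun k _ => (hFa k).sq ho)
  have a2 : HE (fun z => ∑ k, ∑ i, (P.r' (s z i) * col U (Fa U s k) e z i
      + kap P.r P.r' U s k e z i) ^ 2) (Ex Q (fun z => ∑ k, ∑ i, be P U s e k z i ^ 2)) :=
    HE.of (MP.sum _ fun k _ => (hbe k).sq ho)
  have a3 : HE (fun z => ∑ k, ∑ i, (P.r' (s z i) * col U (Fa U s k) e z i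
      + kap P.r P.r' U s k e z i - 1 / 4 * col U (Fa U s k) e z i) ^ 2)
      (Ex Q (fun z => ∑ k, ∑ i, (be P U s e k z i - 1 / 4 * col U (Fa U s k) e z i) ^ 2)) :=
    HE.of (MP.sum _ fun k _ => ((hbe k).sub ((hFa k).smul (1 / 4))).sq ho)
  have a4 : HE (fun z => ∑ k, ∑ i, P.r' (s z i) ^ 2 * xx U ((AA U s k).mulVec e) z i
      * col U (Fa U s k) e z i)
      (Ex Q (fun z => ∑ k, ∑ i, P.r' (s z i) ^ 2 * xx U ((AA U s k).mulVec e) z i
        * col U (Fa U s k) e z i)) :=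
    HE.of (MP.sum _ fun k _ => FC.pdot h hF c_S2 (hAL k) (hFa k))
  have a5 : HE (fun z => ∑ k, ∑ i, xx U ((AA U s k).mulVec e) z i ^ 2) q := by
    refine HE.of_eq (MP.sum _ fun k _ => (hAL k).sq ho) ?_
    simp only [lsum]
    exact SP127.Ex_const' q
  have a6 : HE (fun z => ∑ k, ∑ i, xx U ((AA U s k).mulVec e) z i * col U (Fa U s k) e z i) 0 :=
    HE.of_eq (MP.sum _ fun k _ => (hAL k).dot ho (hFa k)) l5
  have a7 : HE (fun z => ∑ k, ∑ i, P.r' (s z i) ^ 2 * xx U ((AA U s k).mulVec e) z i ^ 2)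
      (Ex Q (fun z => ∑ i, P.r' (s z i) ^ 2 * xx U e z i
        * (q * xx U e z i + col U (ZZ U s) e z i))
      - Ex Q (fun z => ∑ k, ∑ i, P.r' (s z i) ^ 2 * xx U ((AA U s k).mulVec e) z i
        * col U (Fa U s k) e z i)
      + Ex Q (fun z => ∑ i, xx U e z i
          * kA (fun x y => P.r' y ^ 2 - P.r' x ^ 2) U s e z i)) := by
    refine ((t19.sub a4).add u4).congr fun z => ?_
    have c4 := SP.H888.stmtC4 n U s ho (fun x => P.r' x ^ 2) e q AA_symm
      (fun k z => SP127.pdM_GG_symm U s k z) hq z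
    rw [sum_c4 (fun x => P.r' x ^ 2)] at c4
    exact c4
  have a9 : HE (fun z => ∑ k, ∑ i, kap P.r P.r' U s k e z i ^ 2)
      (Ex Q (fun z => ∑ k, ∑ i, kap P.r P.r' U s k e z i ^ 2)) :=
    HE.of (MP.sum _ fun k _ => (hK1 k).sq ho)
  have HA := (a1.smul (m.c - (1 + 1 / m.σ) / 16)) |>.sub (a2.smul (m.c - 1))
    |>.sub (a3.smul (1 + m.σ)) |>.sub (a4.smul (m.c - 1)) |>.add (a5.smul m.L5)
    |>.add (a6.smul m.L7) |>.add ((a7.add a4).smul m.B4) |>.sub (a1.smul m.L6)
    |>.sub (a1.smul (m.c * ν)) |>.add (a9.smul (m.c * b₁))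
  have hAn := HA.nonneg fun z => by
    have key := A_alg (fun i => P.r' (s z i)) (fun k => col U (Fa U s k) e z)
      (fun k => xx U ((AA U s k).mulVec e) z) (fun k => kap P.r P.r' U s k e z)
      (m.c - (1 + 1 / m.σ) / 16) (m.c - 1) (1 + m.σ) m.L5 m.L7 m.B4 m.L6 (m.c * ν) (m.c * b₁)
    refine le_of_le_of_eq (Finset.sum_nonneg fun k _ => Finset.sum_nonneg fun i _ => ?_) key
    exact hm.formA (s z i) (col U (Fa U s k) e z i) (xx U ((AA U s k).mulVec e) z i)
      (kap P.r P.r' U s k e z i)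
  have hg : 0 ≤ m.L6 * (nDF U s e - 2 * nF U s e) :=
    mul_nonneg hm.L6_nonneg (by unfold nDF nF; linarith)
  unfold cT budg
  linarith

end Vale.Agent.P254.SP151
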