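import Vale.Agent.P254.S.H151.Fin
import Vale.Agent.P254.H325.E7
import Vale.Agent.P248.H656.EqBody

/-! P254 line (SP_0), row TOP (helper151): the sharp inequality `StmtS 0` and the equality case
`Eq657.StmtEq` give P254, first question, and P248, second question, with their equality cases. -/

set_option autoImplicit false

open MeasureTheory Matrix

namespace Vale.Agent.P254.SP151

open Vale.Agent.P254.S Vale.Agent.P254.S151

/-- the inequality of P254, first question, from the sharp inequality for potentials -/
theorem isoConst_le_of_stmtS (h0 : StmtS 0) {n : ℕ} (hn : 1 ≤ n) {K S : Set (Fin n → ℝ)}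
    (hK : IsConvexBody K) (hS : IsSimplex S) : isoConst K ≤ isoConst S := by
  have h := X.Loss.isoConst_le_of_niceDDL hn (niceDDL_of h0 (n + 1)) hK hS
  rwa [zero_mul, zero_div, Real.exp_zero, one_mul] at h

/-- **P254, first question, in full** -/
theorem isoConst_full (h0 : StmtS 0) (hE : Eq657.StmtEq) (n : ℕ) (hn : 1 ≤ n)
    (K S : Set (Fin n → ℝ)) (hK : IsConvexBody K) (hS : IsSimplex S) :
    isoConst K ≤ isoConst S ∧ (isoConst K = isoConst S → IsSimplex K) :=
  ⟨isoConst_le_of_stmtS h0 hn hK hS, fun h => Eq325.stmtE7 hE n K S hn hK hS h⟩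

/-- **P248, second question, in full** -/
theorem mahler_full (h0 : StmtS 0) (hE : Eq657.StmtEq) {n : ℕ} {K : Set (P248.H432.E n)}
    (hK : P248.IsConvexBody K) : P248.H432.MahlerFor K :=
  P248.H656.mahlerFor (niceDDL_of h0 (n + 1))
    (fun hn K S hK hS h => Eq325.stmtE7 hE _ K S hn hK hS h) hK

end Vale.Agent.P254.SP151
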